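import Vale.Agent.P207.H832.N4.RicM
import Vale.Agent.P207.Q.H130.Desc
import Vale.Agent.P207.Q.H717.Pinch
import Vale.Agent.P207.Q.FrSys3

/-!
# P207, all dimensions: the unstable Riccati solution of a closed manifold

If the sectional curvatures lie in `[-Λ², -λ²]`, then `λ ≤ U ≤ Λ`. Strict pinching: for
`-(c k) < K ≤ -k` the constants can be chosen with `Λ² < c λ²`.
-/

open scoped Manifold ContDiff ENNReal Topology Matrix Matrix.Norms.L2Operator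
open Bundle MeasureTheory Set Filter

set_option maxSynthPendingDepth 3
set_option linter.unusedSectionVars false

noncomputable section

namespace Vale.Agent.P207.H832.N4

open Vale.Agent.P255 (RMetric coefIn Gam Riem)
open Vale.Agent.P207 Vale.Agent.P207.Q Vale.Agent.P207.Q.H130 Vale.Agent.P207.Q.H892
open Vale.Agent.P207.Q.H545 (Rf)
open Vale.Agent.P207.Q.H717 (secc secc_eq Rf_chart coefIn_self' continuous_Rf)
open Vale.Agent.P207F (gramDet NegCurvature)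

variable {m : ℕ} {M : Type} [TopologicalSpace M] [ChartedSpace (EV (m + 1)) M]
  [IsManifold 𝓘(ℝ, EV (m + 1)) ∞ M] {g : RMetric (EV (m + 1)) M}

theorem continuous_KmM [T2Space M] : Continuous fun f : Fr g => Km g f := by
  refine continuous_matrix fun i j => ?_
  exact (continuous_Rf g i.succ 0 0 j.succ).neg

/-- the quadratic form of `Km` is minus the curvature -/
theorem Km_quad (f : Fr g) (x : Fin m → ℝ) :
    x ⬝ᵥ (Km g f *ᵥ x) = - secc g f.pt (∑ i, x i • f.e i.succ) (f.e 0) := by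
  have h1 : ∀ i j, Km g f i j = -(mt g).coef f.pt (chartAt (EV (m + 1)) f.pt f.pt)
      (D1.curvT ((mt g).coef f.pt) (chartAt (EV (m + 1)) f.pt f.pt) (f.e i.succ) (f.e 0) (f.e 0))
        (f.e j.succ) := fun i j => rfl
  rw [secc_eq]
  simp only [dotProduct, Matrix.mulVec, h1, map_sum, map_smul, FunLike.coe_smul, Pi.smul_apply,
    smul_eq_mul, sum_apply, Finset.mul_sum]
  rw [Finset.sum_comm]
  rw [← Finset.sum_neg_distrib]
  refine Finset.sum_congr rfl fun i _ => ?_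
  rw [← Finset.sum_neg_distrib]
  refine Finset.sum_congr rfl fun j _ => ?_
  ring

theorem inner_ee (f : Fr g) (i j : Fin (m + 1)) :
    innerB g f.pt (f.e i) (f.e j) = if i = j then 1 else 0 := f.inner_e i j

theorem inner_sum (f : Fr g) (x : Fin m → ℝ) :
    innerB g f.pt (∑ i, x i • f.e i.succ) (∑ i, x i • f.e i.succ) = x ⬝ᵥ x := by
  simp only [map_sum, map_smul, FunLike.coe_sum, Finset.sum_apply,
    FunLike.coe_smul, Pi.smul_apply, smul_eq_mul, inner_ee, Fin.succ_inj]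
  simp [dotProduct]

theorem inner_sum_zero (f : Fr g) (x : Fin m → ℝ) :
    innerB g f.pt (∑ i, x i • f.e i.succ) (f.e 0) = 0 := by
  simp only [map_sum, map_smul, FunLike.coe_sum, Finset.sum_apply,
    FunLike.coe_smul, Pi.smul_apply, smul_eq_mul, inner_ee]
  refine Finset.sum_eq_zero fun i _ => ?_
  rw [if_neg (Fin.succ_ne_zero i), mul_zero]

theorem gram_sum (f : Fr g) (x : Fin m → ℝ) :
    gramDet g f.pt (chartAt (EV (m + 1)) f.pt f.pt) (∑ i, x i • f.e i.succ) (f.e 0) = x ⬝ᵥ x := by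
  unfold gramDet
  rw [coefIn_self', coefIn_self', coefIn_self', inner_sum, inner_sum_zero, inner_ee]
  simp

theorem li_sum (f : Fr g) {x : Fin m → ℝ} (hx : x ≠ 0) :
    LinearIndependent ℝ ![∑ i, x i • f.e i.succ, f.e 0] := by
  set w := ∑ i, x i • f.e i.succ with hw
  have hww : innerB g f.pt w w = x ⬝ᵥ x := inner_sum f x
  have hw0 : innerB g f.pt w (f.e 0) = 0 := inner_sum_zero f x
  have h0w : innerB g f.pt (f.e 0) w = 0 := by rw [← hw0]; exact g.symm f.pt _ _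
  have h00 : innerB g f.pt (f.e 0) (f.e 0) = 1 := by rw [inner_ee]; simp
  have hpos : x ⬝ᵥ x ≠ 0 := fun h => hx (dotProduct_self_eq_zero.1 h)
  rw [LinearIndependent.pair_iff]
  intro a b hab
  have h1 : innerB g f.pt (a • w + b • f.e 0) w = a * (x ⬝ᵥ x) := by
    simp [map_add, map_smul, hww, h0w]
  have h3 : innerB g f.pt (a • w + b • f.e 0) (f.e 0) = b := by
    simp [map_add, map_smul, hw0, h00]
  rw [hab] at h1 h3
  simp only [map_zero, zero_apply] at h1 h3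
  refine ⟨?_, h3.symm⟩
  rcases mul_eq_zero.1 h1.symm with h4 | h4
  · exact h4
  · exact absurd h4 hpos

/-- curvature bounds give bounds of the matrix `Km` -/
theorem Km_bounds {l L : ℝ} (f : Fr g)
    (h : ∀ v w : EV (m + 1), LinearIndependent ℝ ![v, w] →
      -L * gramDet g f.pt (chartAt (EV (m + 1)) f.pt f.pt) v w ≤
        coefIn g f.pt (chartAt (EV (m + 1)) f.pt f.pt)
          (Riem (coefIn g f.pt) (chartAt (EV (m + 1)) f.pt f.pt) v w w) v ∧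
      coefIn g f.pt (chartAt (EV (m + 1)) f.pt f.pt)
          (Riem (coefIn g f.pt) (chartAt (EV (m + 1)) f.pt f.pt) v w w) v ≤
        -l * gramDet g f.pt (chartAt (EV (m + 1)) f.pt f.pt) v w) (x : Fin m → ℝ) :
    l * (x ⬝ᵥ x) ≤ x ⬝ᵥ (Km g f *ᵥ x) ∧ x ⬝ᵥ (Km g f *ᵥ x) ≤ L * (x ⬝ᵥ x) := by
  rcases eq_or_ne x 0 with rfl | hx
  · simp
  · obtain ⟨h1, h2⟩ := h _ _ (li_sum f hx)
    rw [gram_sum] at h1 h2
    rw [Km_quad]
    unfold secc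
    constructor <;> linarith

/-- strict form of the upper bound -/
theorem Km_lt {L : ℝ} (f : Fr g)
    (h : ∀ v w : EV (m + 1), LinearIndependent ℝ ![v, w] →
      -L * gramDet g f.pt (chartAt (EV (m + 1)) f.pt f.pt) v w <
        coefIn g f.pt (chartAt (EV (m + 1)) f.pt f.pt)
          (Riem (coefIn g f.pt) (chartAt (EV (m + 1)) f.pt f.pt) v w w) v)
    {x : Fin m → ℝ} (hx : x ≠ 0) : x ⬝ᵥ (Km g f *ᵥ x) < L * (x ⬝ᵥ x) := by
  have h1 := h _ _ (li_sum f hx)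
  rw [gram_sum] at h1
  rw [Km_quad]
  unfold secc
  linarith

/-- the unit sphere -/
theorem compact_sphere (m : ℕ) : IsCompact {x : Fin m → ℝ | x ⬝ᵥ x = 1} := by
  refine Metric.isCompact_of_isClosed_isBounded ?_ ?_
  · refine isClosed_eq ?_ continuous_const
    simp only [dotProduct]
    fun_prop
  · refine (Metric.isBounded_iff_subset_closedBall 0).2 ⟨1, fun x hx => ?_⟩
    rw [mem_closedBall_zero_iff, pi_norm_le_iff_of_nonneg zero_le_one]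
    intro i
    have h1 : x i * x i ≤ x ⬝ᵥ x :=
      Finset.single_le_sum (f := fun j => x j * x j) (fun j _ => mul_self_nonneg (x j))
        (Finset.mem_univ i)
    rw [hx] at h1
    rw [Real.norm_eq_abs]
    exact abs_le_one_iff_mul_self_le_one.2 h1

/-- homogeneity -/
theorem le_of_sphere {a : Matrix (Fin m) (Fin m) ℝ} {c : ℝ}
    (h : ∀ x : Fin m → ℝ, x ⬝ᵥ x = 1 → x ⬝ᵥ (a *ᵥ x) ≤ c) (x : Fin m → ℝ) :
    x ⬝ᵥ (a *ᵥ x) ≤ c * (x ⬝ᵥ x) := by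
  rcases eq_or_ne x 0 with rfl | hx
  · simp
  have hpos : 0 < x ⬝ᵥ x :=
    lt_of_le_of_ne (dot_self_nonneg x) fun h => hx (dotProduct_self_eq_zero.1 h.symm)
  set r := Real.sqrt (x ⬝ᵥ x) with hr
  have hr0 : 0 < r := Real.sqrt_pos.2 hpos
  have hr2 : r * r = x ⬝ᵥ x := Real.mul_self_sqrt hpos.le
  have h1 := h (r⁻¹ • x) (by
    rw [smul_dotProduct, dotProduct_smul, smul_eq_mul, smul_eq_mul, ← mul_assoc, ← hr2]
    field_simp)
  rw [Matrix.mulVec_smul, smul_dotProduct, dotProduct_smul, smul_eq_mul, smul_eq_mul,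
    ← mul_assoc, ← mul_inv, hr2, inv_mul_le_iff₀ hpos] at h1
  linarith

variable [CompactSpace M] [T2Space M]

/-- maximum and minimum of `x · K x` -/
theorem exists_sup [Nonempty (Fr g)] (hm : 0 < m) :
    ∃ (f₀ : Fr g) (x₀ : Fin m → ℝ), x₀ ⬝ᵥ x₀ = 1 ∧ ∀ (f : Fr g) (x : Fin m → ℝ),
      x ⬝ᵥ (Km g f *ᵥ x) ≤ (x₀ ⬝ᵥ (Km g f₀ *ᵥ x₀)) * (x ⬝ᵥ x) := by
  have hne : ({x : Fin m → ℝ | x ⬝ᵥ x = 1}).Nonempty :=
    ⟨Pi.single ⟨0, hm⟩ 1, by simp [dotProduct, Pi.single_apply]⟩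
  have hc : Continuous fun q : Fr g × (Fin m → ℝ) => q.2 ⬝ᵥ (Km g q.1 *ᵥ q.2) :=
    Continuous.dotProduct continuous_snd
      (Continuous.matrix_mulVec (continuous_KmM.comp continuous_fst) continuous_snd)
  obtain ⟨q, hq, hmax⟩ := (isCompact_univ.prod (compact_sphere m)).exists_isMaxOn
    ((univ_nonempty (α := Fr g)).prod hne) hc.continuousOn
  refine ⟨q.1, q.2, hq.2, fun f x => le_of_sphere (fun y hy => ?_) x⟩
  exact hmax (show (f, y) ∈ univ ×ˢ {x : Fin m → ℝ | x ⬝ᵥ x = 1} from ⟨mem_univ _, hy⟩)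

theorem exists_inf [Nonempty (Fr g)] (hm : 0 < m) :
    ∃ (f₀ : Fr g) (x₀ : Fin m → ℝ), x₀ ⬝ᵥ x₀ = 1 ∧ ∀ (f : Fr g) (x : Fin m → ℝ),
      (x₀ ⬝ᵥ (Km g f₀ *ᵥ x₀)) * (x ⬝ᵥ x) ≤ x ⬝ᵥ (Km g f *ᵥ x) := by
  have hne : ({x : Fin m → ℝ | x ⬝ᵥ x = 1}).Nonempty :=
    ⟨Pi.single ⟨0, hm⟩ 1, by simp [dotProduct, Pi.single_apply]⟩
  have hc : Continuous fun q : Fr g × (Fin m → ℝ) => q.2 ⬝ᵥ (Km g q.1 *ᵥ q.2) :=
    Continuous.dotProduct continuous_snd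
      (Continuous.matrix_mulVec (continuous_KmM.comp continuous_fst) continuous_snd)
  obtain ⟨q, hq, hmin⟩ := (isCompact_univ.prod (compact_sphere m)).exists_isMinOn
    ((univ_nonempty (α := Fr g)).prod hne) hc.continuousOn
  refine ⟨q.1, q.2, hq.2, fun f x => ?_⟩
  have h1 := le_of_sphere (a := -Km g f) (c := -(q.2 ⬝ᵥ (Km g q.1 *ᵥ q.2))) (fun y hy => by
    rw [Matrix.neg_mulVec, dotProduct_neg, neg_le_neg_iff]
    exact hmin (show (f, y) ∈ univ ×ˢ {x : Fin m → ℝ | x ⬝ᵥ x = 1} from ⟨mem_univ _, hy⟩)) x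
  rw [Matrix.neg_mulVec, dotProduct_neg] at h1
  linarith

/-- **negative curvature: global constants** -/
theorem exists_Km_neg (h : NegCurvature g) : ∃ lam Lam : ℝ, 0 < lam ∧ lam ≤ Lam ∧
    ∀ (f : Fr g) (x : Fin m → ℝ), lam ^ 2 * (x ⬝ᵥ x) ≤ x ⬝ᵥ (Km g f *ᵥ x) ∧
      x ⬝ᵥ (Km g f *ᵥ x) ≤ Lam ^ 2 * (x ⬝ᵥ x) := by
  rcases isEmpty_or_nonempty (Fr g) with hE | hE
  · exact ⟨1, 1, one_pos, le_rfl, fun f => (hE.false f).elim⟩
  rcases Nat.eq_zero_or_pos m with rfl | hm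
  · exact ⟨1, 1, one_pos, le_rfl, fun f x => by simp [dotProduct]⟩
  obtain ⟨f₀, x₀, hx₀, h0⟩ := exists_inf (g := g) hm
  obtain ⟨f₁, x₁, hx₁, h1⟩ := exists_sup (g := g) hm
  have hpos : 0 < x₀ ⬝ᵥ (Km g f₀ *ᵥ x₀) := by
    have hne : x₀ ≠ 0 := by
      rintro rfl
      simp at hx₀
    have h2 := h f₀.pt _ (mem_chart_target _ _) _ _ (li_sum f₀ hne)
    rw [Km_quad]
    unfold secc
    linarith
  have hle : x₀ ⬝ᵥ (Km g f₀ *ᵥ x₀) ≤ x₁ ⬝ᵥ (Km g f₁ *ᵥ x₁) := by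
    have := (h0 f₁ x₁).trans_eq rfl
    rw [hx₁, mul_one] at this
    exact this
  refine ⟨Real.sqrt (x₀ ⬝ᵥ (Km g f₀ *ᵥ x₀)), Real.sqrt (x₁ ⬝ᵥ (Km g f₁ *ᵥ x₁)),
    Real.sqrt_pos.2 hpos, Real.sqrt_le_sqrt hle, fun f x => ⟨?_, ?_⟩⟩
  · rw [Real.sq_sqrt hpos.le]; exact h0 f x
  · rw [Real.sq_sqrt (hpos.le.trans hle)]; exact h1 f x

/-- **strict `1/c`-pinching: global constants with `Λ² < c λ²`** -/
theorem exists_Km_pinched {c : ℝ} (hc1 : 1 < c) (h : ∃ k : ℝ, 0 < k ∧ ∀ (a : M),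
    ∀ u ∈ (chartAt (EV (m + 1)) a).target, ∀ v w : EV (m + 1), LinearIndependent ℝ ![v, w] →
      -(c * k) * gramDet g a u v w < coefIn g a u (Riem (coefIn g a) u v w w) v ∧
      coefIn g a u (Riem (coefIn g a) u v w w) v ≤ -k * gramDet g a u v w) :
    ∃ lam Lam : ℝ, 0 < lam ∧ lam ≤ Lam ∧ Lam ^ 2 < c * lam ^ 2 ∧
    ∀ (f : Fr g) (x : Fin m → ℝ), lam ^ 2 * (x ⬝ᵥ x) ≤ x ⬝ᵥ (Km g f *ᵥ x) ∧
      x ⬝ᵥ (Km g f *ᵥ x) ≤ Lam ^ 2 * (x ⬝ᵥ x) := by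
  rcases isEmpty_or_nonempty (Fr g) with hE | hE
  · exact ⟨1, 1, one_pos, le_rfl, by linarith, fun f => (hE.false f).elim⟩
  rcases Nat.eq_zero_or_pos m with rfl | hm
  · exact ⟨1, 1, one_pos, le_rfl, by linarith, fun f x => by simp [dotProduct]⟩
  obtain ⟨k, hk, hp⟩ := h
  obtain ⟨f₁, x₁, hx₁, h1⟩ := exists_sup (g := g) hm
  have hlow : ∀ (f : Fr g) (x : Fin m → ℝ), k * (x ⬝ᵥ x) ≤ x ⬝ᵥ (Km g f *ᵥ x) := fun f x =>
    (Km_bounds (l := k) (L := c * k) f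
      (fun v w hvw => ⟨(hp f.pt _ (mem_chart_target _ _) v w hvw).1.le,
        (hp f.pt _ (mem_chart_target _ _) v w hvw).2⟩) x).1
  have hne : x₁ ≠ 0 := by
    rintro rfl
    simp at hx₁
  have hhi : x₁ ⬝ᵥ (Km g f₁ *ᵥ x₁) < c * k := by
    have := Km_lt (L := c * k) f₁
      (fun v w hvw => (hp f₁.pt _ (mem_chart_target _ _) v w hvw).1) hne
    rwa [hx₁, mul_one] at this
  have hle : k ≤ x₁ ⬝ᵥ (Km g f₁ *ᵥ x₁) := by
    have := hlow f₁ x₁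
    rwa [hx₁, mul_one] at this
  refine ⟨Real.sqrt k, Real.sqrt (x₁ ⬝ᵥ (Km g f₁ *ᵥ x₁)), Real.sqrt_pos.2 hk,
    Real.sqrt_le_sqrt hle, ?_, fun f x => ⟨?_, ?_⟩⟩
  · rw [Real.sq_sqrt hk.le, Real.sq_sqrt (hk.le.trans hle)]; exact hhi
  · rw [Real.sq_sqrt hk.le]; exact hlow f x
  · rw [Real.sq_sqrt (hk.le.trans hle)]; exact h1 f x

/-- strictly `4/9`-pinched: `2 Λ < 3 λ` -/
theorem exists_Km_49 (h : ∃ k : ℝ, 0 < k ∧ ∀ (a : M),
    ∀ u ∈ (chartAt (EV (m + 1)) a).target, ∀ v w : EV (m + 1), LinearIndependent ℝ ![v, w] →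
      -(9 / 4 * k) * gramDet g a u v w < coefIn g a u (Riem (coefIn g a) u v w w) v ∧
      coefIn g a u (Riem (coefIn g a) u v w w) v ≤ -k * gramDet g a u v w) :
    ∃ lam Lam : ℝ, 0 < lam ∧ lam ≤ Lam ∧ 2 * Lam < 3 * lam ∧
    ∀ (f : Fr g) (x : Fin m → ℝ), lam ^ 2 * (x ⬝ᵥ x) ≤ x ⬝ᵥ (Km g f *ᵥ x) ∧
      x ⬝ᵥ (Km g f *ᵥ x) ≤ Lam ^ 2 * (x ⬝ᵥ x) := by
  obtain ⟨lam, Lam, hl, hle, hlt, hb⟩ := exists_Km_pinched (c := 9 / 4) (by norm_num) h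
  exact ⟨lam, Lam, hl, hle, by nlinarith, hb⟩

/-- **the unstable Riccati solution, with the sharp constants** -/
theorem exists_UR_of [Nonempty (Fr g)] {lam Lam : ℝ} (hl : 0 < lam) (hle : lam ≤ Lam)
    (hb : ∀ (f : Fr g) (x : Fin m → ℝ), lam ^ 2 * (x ⬝ᵥ x) ≤ x ⬝ᵥ (Km g f *ᵥ x) ∧
      x ⬝ᵥ (Km g f *ᵥ x) ≤ Lam ^ 2 * (x ⬝ᵥ x)) :
    ∃ U : Fr g → Matrix (Fin m) (Fin m) ℝ, Continuous U ∧ IsUR ((horFlows g).Φ 0) lam Lam U ∧
      (∀ f, (U f)ᵀ = U f) ∧ (∀ f, ‖U f‖ ≤ Lam) ∧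
      ∀ f x, x ⬝ᵥ (U f *ᵥ x) ≤ Lam * (x ⬝ᵥ x) := by
  have hor := (horFlows g).hor 0
  obtain ⟨U, hUc, hUs, hlo, hhi, hn, hd⟩ := exists_ric (Θ := Fr g) (K := fun f => Km g f)
    (φ := (horFlows g).Φ 0) (lam := lam) (Λ := Lam) ((horFlows g).cont 0)
    (fun s t f => hor.add s t f) continuous_KmM Km_symm hl hle (fun f x => (hb f x).1)
    (fun f x => (hb f x).2)
  refine ⟨U, hUc, ⟨hl, hlo, fun f i j => (abs_entry_le _ i j).trans (hn f), fun f r i j => ?_⟩,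
    hUs, hn, hhi⟩
  exact (entM i j).hasFDerivAt.comp_hasDerivAt r (hd f r)

/-- **the unstable Riccati solution in negative curvature** -/
theorem exists_UR [Nonempty (Fr g)] (h : NegCurvature g) :
    ∃ (lam Lam : ℝ) (U : Fr g → Matrix (Fin m) (Fin m) ℝ), Continuous U ∧
      IsUR ((horFlows g).Φ 0) lam Lam U ∧ ∀ f x, x ⬝ᵥ (U f *ᵥ x) ≤ Lam * (x ⬝ᵥ x) := by
  obtain ⟨lam, Lam, hl, hle, hb⟩ := exists_Km_neg h
  obtain ⟨U, hUc, hU, -, -, hhi⟩ := exists_UR_of hl hle hb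
  exact ⟨lam, Lam, U, hUc, hU, hhi⟩

end Vale.Agent.P207.H832.N4
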